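import Vale.Agent.P088.R2.H205.C.SpecR
import Vale.Agent.P088.R2.H31.EP.Pack

/-!
# P088, stage 3, zone C, region I: the rows for the true weight
-/

open Set Filter MeasureTheory
open scoped ContDiff Topology

noncomputable section

namespace Vale.Agent.P088.R2.H205.CP

open Vale.Agent.P088.LR Vale.Agent.P088.HY
open Vale.Agent.P088.R2.H644 Vale.Agent.P088.R2.H961.GW
open Vale.Agent.P088.R2.H31.EP
open Vale.Agent.P088.R2.H464.Cu (mid dif rq)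

variable {n : ℕ}

/-- Region I: `r ≤ 2 c₀`, `E r² ≤ 2 cK K`, `N ≤ aC E`, `E ≤ 4 N^2.6`, below the top. -/
def OI (q : Cst) (d : Pk n) : Set (VV n) :=
  {z | d.r2 z ≤ (2 * q.c₀) ^ 2 ∧ d.m q z ≤ 2 * q.cK * d.Kf q z ∧ d.N q z ≤ q.aC * d.E q z ∧
    d.E q z ≤ 4 * d.N q z ^ (13 / 5 : ℝ) ∧ d.u q z ≤ d.utb q}

/-- **(CW)** the cells of the true weight. -/
def RowCW : Prop := ∀ n : ℕ, 3 ≤ n → ∀ κ₀ : ℝ, 0 < κ₀ → ∃ C₂ : ℝ, 0 < C₂ ∧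
  ∀ (c : ℝ) (K₀ lam : ℝ → ℝ), 0 < c → (∀ t, 0 < t → 0 < lam t ∧ lam t ≤ 1 / t) →
  EvC fun q => ∃ C₃ : ℝ, 0 < C₃ ∧ ∀ d : Pk n, PkOk q d →
    Cel' κ₀ C₂ C₃ c c (K₀ C₃) (lam C₃) (d.W q) (d.E q) (d.Kf q) (OI q d)

/-- The direction of the level, `|ν| ≤ 1`. -/
def nuL (d : Pk n) (i : Fin n) (z : VV n) : ℝ := fderiv ℝ d.l (mid z) (Pi.single i 1) / 2

/-- The weight of region I, `g (E (1 + m) + N²) = E²`. -/
def gfI (q : Cst) (d : Pk n) (z : VV n) : ℝ :=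
  d.E q z ^ 2 / (d.E q z * (1 + d.m q z) + d.N q z ^ 2)

/-- **(PW)** the pointwise inequality of region I for the true weight (curved). -/
def RowPW : Prop := ∀ n : ℕ, 3 ≤ n → ∀ δ : ℝ, 0 < δ → ∃ C₃ : ℝ, 0 < C₃ ∧ ∀ ep : ℝ, 0 < ep →
  EvC fun q => ∀ d : Pk n, PkOk q d →
    pwI d.sx d.sy 0 0 (d.W q) (d.E q) (d.Kf q) (nuL d) δ C₃ ep (OI q d)

/-- **(RF)** the remaining fields for the true weight. -/
def RowRF : Prop := ∀ n : ℕ, 3 ≤ n → ∃ C₂ : ℝ, 0 < C₂ ∧ ∀ A₀ : ℝ, 0 < A₀ →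
  EvC fun q => ∀ d : Pk n, PkOk q d →
    RIs d.sx d.sy (d.W q) (d.E q) (d.Kf q) (gfI q d) (nuL d) C₂ A₀ (OI q d) ∧
      ∀ z ∈ OI q d, d.N q z ^ 2 ≤ 16 * (∑ i, nuL d i z * dp i (d.W q) z) ^ 2

end Vale.Agent.P088.R2.H205.CP
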