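import Vale.Agent.P088.R2.H205.C.SpecW
import Vale.Agent.P088.R2.H281.A.Win
import Vale.Agent.P088.R2.H509.EP.Side

/-!
# P088, stage 3, zone C, region I: the support of the cutoff `zI`
-/

open Set Filter MeasureTheory
open scoped ContDiff Topology

noncomputable section

namespace Vale.Agent.P088.R2.H205.CP

open Vale.Agent.P088.LR Vale.Agent.P088.HY
open Vale.Agent.P088.R2.H31.EP
open Vale.Agent.P088.R2.H867.EP (Zo Near Off Cut)
open Vale.Agent.P088.R2.H464.Cu (mid dif rq)

variable {n : ℕ} {q : Cst} {d : Pk n}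

/-- The facts on a near leaf: closed conditions. -/
structure NrOk (q : Cst) (d : Pk n) (z : VV n) : Prop where
  fin : H281.A.FinOk q d z
  r : d.r2 z ≤ 4 * q.c₀ ^ 2
  u : d.u q z ≤ d.utb q

theorem cN (hd : PkOk q d) (h : LitSm q d) : Continuous (d.N q) :=
  hd.Φ's.continuous.comp h.u.continuous

theorem cE (h : LitSm q d) : Continuous (d.E q) := Real.continuous_exp.comp h.u.continuous

theorem cr2 (h : LitSm q d) : Continuous d.r2 := continuous_const.mul h.rq.continuous

theorem cKf (hd : PkOk q d) (h : LitSm q d) : Continuous (d.Kf q) :=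
  hd.Φ''s.continuous.comp h.u.continuous

theorem cm (h : LitSm q d) : Continuous (d.m q) := (cE h).mul (cr2 h)

theorem near_supp (n : ℕ) : EvC fun q => ∀ d : Pk n, PkOk q d → ∀ k, Near k →
    ∀ z ∈ tsupport (d.ch q k), NrOk q d z := by
  refine (((H281.A.fin_supp n).and (EvC.litSm n)).and H281.A.evWin).mono
    fun q hq d hd k hk z hz => ?_
  have hs := hq.1.2 d hd
  have hfin := hq.1.1 d hd k (Or.inl hk) z hz
  refine ⟨hfin, ?_, ?_⟩
  · exact closure_minimal (fun w hw => sd_r (Function.mem_support.1 hw) hk hs.cp)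
      (isClosed_le (cr2 hs) continuous_const) hz
  · have h1 := hfin.ua
    have h2 := hq.2.R1
    have h3 : d.uta q = 2 * d.l₀ q + 45 / 10 * q.R := rfl
    have h4 : d.utb q = 2 * d.l₀ q + 47 / 10 * q.R := rfl
    rw [h4]
    rw [h3] at h1
    linarith

/-- **The support of `zI`.** -/
theorem supp_zI (n : ℕ) : EvC fun q => ∀ d : Pk n, PkOk q d →
    tsupport (d.ch q .zI) ⊆ OI q d := by
  refine (((near_supp n).and (EvC.litSm n)).and EvC.pos).mono fun q hq d hd z hz => ?_
  have hs := hq.1.2 d hd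
  have hn := hq.1.1 d hd .zI (Or.inr (Or.inl rfl)) z hz
  obtain ⟨⟨-, -, -, hcK, haC, hc0, -⟩, -, hM, -⟩ := hq.2
  have N0 : ∀ w, 0 < d.N q w := fun w => hd.N_pos hM _
  have hN := cN hd hs
  have hE := cE hs
  have hK := cKf hd hs
  have hm := cm hs
  have k1 : d.m q z ≤ 2 * (q.cK * d.Kf q z) :=
    closure_minimal (fun w hw => sd_zI (Function.mem_support.1 hw) hs.cp)
      (isClosed_le hm (continuous_const.mul (continuous_const.mul hK))) hz
  have k2 : d.N q z ≤ q.aC * d.E q z :=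
    closure_minimal (fun w hw => sd_e0 (Function.mem_support.1 hw) (Or.inr (Or.inl rfl))
      (by decide) hs.cp haC (N0 w)) (isClosed_le hN (continuous_const.mul hE)) hz
  have k3 : d.E q z ≤ 2 * d.N q z ^ (13 / 5 : ℝ) :=
    closure_minimal (fun w hw => sd_C (Function.mem_support.1 hw) (Or.inl rfl) hs.cp (N0 w))
      (isClosed_le hE (continuous_const.mul (hN.rpow_const fun w => Or.inl (N0 w).ne'))) hz
  refine ⟨?_, ?_, k2, ?_, hn.u⟩
  · have := hn.r
    show d.r2 z ≤ (2 * q.c₀) ^ 2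
    linarith [this, show (2 * q.c₀) ^ 2 = 4 * q.c₀ ^ 2 by ring]
  · show d.m q z ≤ 2 * q.cK * d.Kf q z
    linarith
  · have := Real.rpow_pos_of_pos (N0 z) (13 / 5 : ℝ)
    show d.E q z ≤ 4 * d.N q z ^ (13 / 5 : ℝ)
    linarith

end Vale.Agent.P088.R2.H205.CP
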