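import Vale.Agent.P088.R2.H205.C.ZIfin
import Vale.Agent.P088.R2.H338.C.ZK
import Vale.Agent.P088.R2.H960.C.AI4
import Vale.Agent.P088.R2.H960.X.Cw
import Vale.Agent.P088.R2.H321.C.CM
import Vale.Agent.P088.R2.H935.C.EN
import Vale.Agent.P088.R2.H341.C.RF
import Vale.Agent.P088.R2.H680.C.TubeG
import Vale.Agent.P088.R2.H558.G.Shape

/-!
# P088, stage 3, zone C, region I: row `ZRI` of the leaf `zI`
-/

open Set Filter MeasureTheory
open scoped ContDiff Topology

noncomputable section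

namespace Vale.Agent.P088.R2.H205.CP

open Vale.Agent.P088.R2.H31.EP

/-- The constant of the tube letters (positive for all `q`). -/
def cTt (t₀ : ℝ) (q : Cst) : ℝ := if q.c₀ * q.rT = 0 then 1 else t₀ * (q.c₀ * q.rT) ^ 2

theorem cTt_pos {t₀ : ℝ} (h : 0 < t₀) (q : Cst) : 0 < cTt t₀ q := by
  unfold cTt
  split_ifs with h1
  · exact one_pos
  · positivity

/-- **The leaf `zI`** from the pointwise row. -/
theorem zri_of (hPW : RowPW) : ∀ n : ℕ, 3 ≤ n → H558.G.ZRI n := by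
  intro n hn
  obtain ⟨c, C, c₁, t₀, hc, hC, h1, h0, H⟩ := H338.TC.zI_tube H960.C.rowAI' H321.CM.rowCM
    H935.EN.rowEN H960.X.rowCW hPW H341.RF.rowRF H680.C.rowTF n hn
  have H' : ZIg n c C c₁ (cTt t₀) := by
    have h := EvC.and H EvC.pos
    refine EvC.mono h fun q hq d hd t ht χ sχ hχ => ?_
    have e : cTt t₀ q = t₀ * (q.c₀ * q.rT) ^ 2 := by
      unfold cTt
      rw [if_neg]
      have a1 : 0 < q.c₀ := hq.2.1.2.2.2.2.2.1
      have a2 : 0 < q.rT := hq.2.1.2.2.2.2.2.2.2.1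
      positivity
    rw [e]
    exact hq.1 d hd t ht χ sχ hχ
  exact zI_fin hn H341.RF.rowRF hc hC h1 ⟨cTt_pos h0, fun _ => rfl⟩ H'

end Vale.Agent.P088.R2.H205.CP
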