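import Vale.Agent.P088.R2.H205.C.RIg
import Vale.Agent.P088.R2.H205.C.SpecW

/-!
# P088, stage 3, zone C, region I: the theorem for the true weight
-/

open Set Filter MeasureTheory
open scoped ContDiff Topology

noncomputable section

namespace Vale.Agent.P088.R2.H205.CP

open Vale.Agent.P088.LR Vale.Agent.P088.HY
open Vale.Agent.P088.R2.H644 Vale.Agent.P088.R2.H961.GW Vale.Agent.P088.R2.H551.E
open Vale.Agent.P088.R2.H31.EP
open Vale.Agent.P088.R2.H464.Cu (mid dif rq)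

variable {n : ℕ}

theorem RIs.mono {σ τ : Sl (VV n) (Fin n)} {W Ef Kf gf : VV n → ℝ} {ν : Fin n → VV n → ℝ}
    {C₂ C₂' A₀ : ℝ} {O : Set (VV n)} (h : RIs σ τ W Ef Kf gf ν C₂ A₀ O) (h1 : C₂ ≤ C₂') :
    RIs σ τ W Ef Kf gf ν C₂' A₀ O :=
  { h with
    gF := fun z hz => ⟨((h.gF z hz).1).trans (mul_le_mul_of_nonneg_right h1 (sq_nonneg _)),
      ((h.gF z hz).2).trans (mul_le_mul_of_nonneg_right h1 (sq_nonneg _))⟩
    gG := fun z hz => (h.gG z hz).trans (mul_le_mul_of_nonneg_right h1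
      (mul_nonneg (sq_nonneg _) (h.E0 z).le))
    gν := fun z hz => (h.gν z hz).trans (mul_le_mul_of_nonneg_right h1 (sq_nonneg _)) }

/-- **Region I for the true weight**, any cut-off supported in `OI`. -/
theorem zI_K (hAI : RowAI') (hCM : RowCM) (hEN : RowEN) (hCW : RowCW) (hPW : RowPW)
    (hRF : RowRF) : ∀ n : ℕ, 3 ≤ n → ∃ c C : ℝ, 0 < c ∧ 0 < C ∧
    EvC fun q => ∀ d : Pk n, PkOk q d → (∀ z ∈ OI q d,
        d.N q z ^ 2 ≤ 16 * Mν (nuL d) (d.W q) z ^ 2) ∧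
      RIs d.sx d.sy (d.W q) (d.E q) (d.Kf q) (gfI q d) (nuL d) C 1 (OI q d) ∧
      ∀ χ : VV n → ℝ, ContDiff ℝ ∞ χ → tsupport χ ⊆ OI q d →
      ZoneK d.sx d.sy 0 0 (d.W q) (d.Kf q) χ (nuL d) c
        ((mgI c d.sx d.sy (d.W q) (d.E q) (gfI q d) (nuL d)).sm fun z => χ z ^ 2)
        (coI C (d.E q) χ) := by
  intro n hn
  obtain ⟨δ, κ₀, hδ, hκ₀, H⟩ := ri hAI hCM hEN n hn
  obtain ⟨Ca, hCa, HC⟩ := hCW n hn κ₀ hκ₀
  obtain ⟨Cb, hCb, HR⟩ := hRF n hn
  obtain ⟨C₃, hC₃, HP⟩ := hPW n hn δ hδ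
  obtain ⟨c₁, A₀, c, C, ep, hc₁, hA₀, hc, hC, hep, H⟩ := H (max Ca Cb) C₃ (by positivity) hC₃
  choose! K₀ lam hK₀ hlam hlam1 H using H
  have e1 := HC c₁ K₀ lam hc₁ fun t ht => ⟨hlam t ht, hlam1 t ht⟩
  have e2 := HP ep hep
  have e3 := HR A₀ (by linarith)
  refine ⟨c, max C Cb, hc, by positivity, ((e1.and e2).and e3).mono ?_⟩
  rintro q ⟨⟨⟨C₄, hC₄, h1⟩, h2⟩, h3⟩ d hd
  obtain ⟨h3, h3'⟩ := h3 d hd
  have hm : RIs d.sx d.sy (d.W q) (d.E q) (d.Kf q) (gfI q d) (nuL d) (max C Cb) 1 (OI q d) := by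
    have h5 := h3.mono (le_max_right C Cb)
    have F0 : ∀ z, 0 ≤ d.sx.F (d.W q) z := fun z => by
      have := h3.loσ z fun i => d.sx.D i (d.W q) z
      have h6 : 0 ≤ ∑ i, d.sx.D i (d.W q) z ^ 2 := Finset.sum_nonneg fun _ _ => sq_nonneg _
      have h7 : d.sx.F (d.W q) z = ∑ i, ∑ j, d.sx.s i j z * d.sx.D i (d.W q) z *
        d.sx.D j (d.W q) z := rfl
      linarith
    have F0' : ∀ z, 0 ≤ d.sy.F (d.W q) z := fun z => by
      have := h3.loτ z fun i => d.sy.D i (d.W q) z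
      have h6 : 0 ≤ ∑ i, d.sy.D i (d.W q) z ^ 2 := Finset.sum_nonneg fun _ _ => sq_nonneg _
      have h7 : d.sy.F (d.W q) z = ∑ i, ∑ j, d.sy.s i j z * d.sy.D i (d.W q) z *
        d.sy.D j (d.W q) z := rfl
      linarith
    exact { h5 with
      aM := fun z hz => (hA₀.trans (h3.aM z hz))
      aK := fun z hz => by
        have h8 := mul_le_mul_of_nonneg_right hA₀ (mul_nonneg (h3.E0 z).le (h3.k0 z hz))
        exact h8.trans (h3.aK z hz)
      aF := fun z hz => by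
        have h8 := mul_le_mul_of_nonneg_right hA₀
          (by linarith [F0 z, F0' z] : 0 ≤ d.sx.F (d.W q) z + d.sy.F (d.W q) z + 1)
        exact h8.trans (h3.aF z hz)
      aE := fun z hz => by
        have h8 := mul_le_mul_of_nonneg_right hA₀
          (by linarith [F0 z, F0' z] : 0 ≤ d.sx.F (d.W q) z + d.sy.F (d.W q) z + 1)
        exact h8.trans (h3.aE z hz) }
  refine ⟨fun z hz => h3' z hz, hm, fun χ sχ hχ => ?_⟩
  have rd : RD d.sx d.sy 0 0 (d.W q) (d.E q) (d.Kf q) (gfI q d) (nuL d) (max Ca Cb) A₀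
      (OI q d) χ :=
    { s := h3.mono (le_max_right _ _)
      sv₁ := contDiff_const
      sv₂ := contDiff_const
      bv := fun z _ => by simp
      sχ := sχ
      O := hχ
      C₂ := by positivity
      A₀ := hA₀ }
  have cel : Cel' κ₀ (max Ca Cb) C₄ c₁ c₁ (K₀ C₄) (lam C₄) (d.W q) (d.E q) (d.Kf q) (OI q d) :=
    (h1 d hd).mono (le_max_left _ _) le_rfl le_rfl (fun z _ => (h3.E0 z).le) h3.k0
  have key := H C₄ hC₄ d.sx d.sy 0 0 (d.W q) (d.E q) (d.Kf q) (gfI q d) (nuL d) (OI q d) χ rd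
    cel (h2 d hd)
  intro a b ha hb
  refine le_trans ?_ (key a b ha hb)
  have h4 : In univ (fun _ => 1) ((coI C (d.E q) χ).dens d.sx d.sy 0 0 (d.W q) a b) ≤
      In univ (fun _ => 1) ((coI (max C Cb) (d.E q) χ).dens d.sx d.sy 0 0 (d.W q) a b) := by
    rw [int_univ, int_univ]
    have sE := h3.sE.continuous
    have cq := c_gq sχ
    have cp := c_gp sχ
    have cc : ∀ C : ℝ, Cc ((coI C (d.E q) χ).dens d.sx d.sy 0 0 (d.W q) a b) := fun C => by
      have e : ((coI C (d.E q) χ).dens d.sx d.sy 0 0 (d.W q) a b) = fun z =>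
          (C * (d.E q z * (gq χ z + gp χ z))) * (a z + b z) ^ 2 +
          (C * (d.E q z * gp χ z + (gq χ z + gp χ z))) * (a z - b z) ^ 2 := by
        funext z
        unfold Q8.dens coI
        ring
      rw [e]
      exact (cc_sq (continuous_const.mul (sE.mul (cq.add cp)))
        (ha.add isOpen_univ hb)).add (cc_sq (continuous_const.mul ((sE.mul cp).add
          (cq.add cp))) (ha.sub isOpen_univ hb))
    refine integral_mono (cc C).int (cc _).int fun z => ?_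
    have q1 := gq_nn χ z
    have q2 := gp_nn χ z
    have q3 := (h3.E0 z).le
    refine Q8.dens_le ⟨le_rfl, le_rfl, le_rfl, le_rfl, le_rfl, le_rfl, ?_, ?_⟩
    · exact mul_le_mul_of_nonneg_right (le_max_left C Cb) (by positivity)
    · exact mul_le_mul_of_nonneg_right (le_max_left C Cb) (by positivity)
  linarith

end Vale.Agent.P088.R2.H205.CP
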