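import Vale.Agent.P088.R2.H205.C.ZT
import Vale.Agent.P088.R2.H205.C.ZSup
import Vale.Agent.P088.R2.H338.C.ThC
import Vale.Agent.P088.R2.H455.E.Lett
import Vale.Agent.P088.R2.H341.EP.Ct
import Vale.Agent.P088.R2.H354.E.Pert

/-!
# P088, stage 3, zone C, region I: the leaf `zI` of the partition
-/

open Set Filter MeasureTheory
open scoped ContDiff Topology

noncomputable section

namespace Vale.Agent.P088.R2.H205.CP

open Vale.Agent.P088.LR Vale.Agent.P088.HY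
open Vale.Agent.P088.R2.H644 Vale.Agent.P088.R2.H961.GW Vale.Agent.P088.R2.H551.E
open Vale.Agent.P088.R2.H31.EP Vale.Agent.P088.R2.H165
open Vale.Agent.P088.R2.H464.Cu (mid dif rq)
open Vale.Agent.P088.R2.H338.C (TL qt cdn cu2 nr Dn)
open Vale.Agent.P088.R2.H338.TC (Na rx ry rr RowTF TF)
open Vale.Agent.P088.R2.H867.Z (sq1 sqp)
open Vale.Agent.P088.R2.H455.E (Lc ZoE RowZo Mz coz cTu nu SmE)

variable {n : ℕ}

/-- **Region I with the tube letters**, for every cut-off. -/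
def ZIg (n : ℕ) (c C c₁ : ℝ) (cT : Cst → ℝ) : Prop := EvC fun q => ∀ d : Pk n, PkOk q d →
  ∀ t : Tab.Nu (VV n), NuOk q d t →
  ∀ χ : VV n → ℝ, ContDiff ℝ ∞ χ → tsupport χ ⊆ OI q d →
  d.Zone q χ ((qt (Tab.MI t c) + TL (cT q) (Na d) (rx q d) (ry q d)).sm fun z => χ z ^ 2)
    (Tab.cI t C (fun z => gq χ z + gp χ z) (gp χ) +
      cdn d.sx d.sy (nuL d) χ (nr c₁ (Na d) (ry q d)) (nr c₁ (Na d) (rx q d)) +
      cu2 d.sx d.sy (nr (4 * cT q) (Na d) (ry q d)) (nr (4 * cT q) (Na d) (rx q d)) χ)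

theorem gp_sqp (χ : VV n → ℝ) (z : VV n) : gp χ z = sqp χ z := rfl

theorem gqp_sq1 (χ : VV n → ℝ) (z : VV n) : gq χ z + gp χ z ≤ 3 * sq1 χ z := by
  unfold gq gp sq1 dq dp
  rw [← Finset.sum_add_distrib, Finset.mul_sum]
  refine Finset.sum_le_sum fun i _ => ?_
  nlinarith [sq_nonneg (dx i χ z - dy i χ z), sq_nonneg (dx i χ z + dy i χ z)]

/-- The numbers of `455`'s table, with `k = 0`. -/
def nu0 (q : Cst) (d : Pk n) : Tab.Nu (VV n) := nu (fun _ _ _ => 0) q d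

theorem nu0_ct {q : Cst} {d : Pk n} (hd : PkOk q d) (hs : LitSm q d)
    (h1 : Continuous (d.sx.F (d.W q))) (h2 : Continuous (d.sy.F (d.W q))) :
    H341.EP.NuCt (nu0 q d) univ where
  En := (cE hs).continuousOn
  N := (cN hd hs).continuousOn
  K := (cKf hd hs).continuousOn
  r2 := (cr2 hs).continuousOn
  m := (cm hs).continuousOn
  k := continuousOn_const
  F₁ := h1.continuousOn
  F₂ := h2.continuousOn
  E0 _ _ := Real.exp_pos _
  m0 z _ := mul_nonneg (Real.exp_pos _).le (mul_nonneg zero_le_two (hs.rq0 z))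

theorem c_sq1 {χ : VV n → ℝ} (h : ContDiff ℝ ∞ χ) : Continuous (sq1 χ) :=
  continuous_finsetSum _ fun i _ => ((c_dx h i).pow 2).add ((c_dy h i).pow 2)

theorem c_sqp {χ : VV n → ℝ} (h : ContDiff ℝ ∞ χ) : Continuous (sqp χ) :=
  continuous_finsetSum _ fun i _ => ((c_dx h i).add (c_dy h i)).pow 2

/-- The derivative in the direction `ν`. -/
theorem Dn_sq {ι : Type*} [Fintype ι] {σ : Sl (VV n) ι} {ν : ι → VV n → ℝ} {χ : VV n → ℝ}
    {z : VV n} (h : ∑ i, ν i z ^ 2 ≤ 1) : Dn σ ν χ z ^ 2 ≤ ∑ i, σ.D i χ z ^ 2 := by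
  unfold Dn
  refine (Finset.sum_mul_sq_le_sq_mul_sq _ _ _).trans ?_
  have := Finset.sum_nonneg fun i (_ : i ∈ Finset.univ) => sq_nonneg (σ.D i χ z)
  nlinarith

/-- Smoothness of the tube letters. -/
structure SmT (q : Cst) (d : Pk n) : Prop where
  Na : ContDiff ℝ ∞ (Na d)
  rx : ContDiff ℝ ∞ (rx q d)
  ry : ContDiff ℝ ∞ (ry q d)
  N0 : ∀ z, 0 < H338.TC.Na d z

theorem smT {q : Cst} {d : Pk n} (hd : PkOk q d) (hs : LitSm q d) (hr : H509.Rad.Ok q.e₁ rp)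
    (hM : 1 ≤ q.M₀) (hT : 0 < q.rT) : SmT q d := by
  have srr : ContDiff ℝ ∞ (rr q : VV n → ℝ) := by
    refine Real.smoothTransition.contDiff.comp ?_
    exact ((contDiff_const.mul qq_sm).div_const _).sub contDiff_const
  exact
    { Na := hd.Φ's.comp hs.u0
      rx := srr.mul (Real.smoothTransition.contDiff.comp
        (contDiff_const.sub (hd.tx_sm hr hM (by positivity))))
      ry := srr.mul (Real.smoothTransition.contDiff.comp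
        (contDiff_const.sub (hd.ty_sm hr hM (by positivity))))
      N0 := fun z => hd.N_pos hM _ }

theorem SmT.nr {q : Cst} {d : Pk n} (h : SmT q d) (c : ℝ) {ρ : VV n → ℝ} (hρ : ContDiff ℝ ∞ ρ) :
    ContDiff ℝ ∞ (nr c (H338.TC.Na d) ρ) := contDiff_const.mul (h.Na.mul (hρ.pow 2))

theorem SmT.TL {q : Cst} {d : Pk n} (h : SmT q d) (c : ℝ) :
    (TL c (H338.TC.Na d) (H338.TC.rx q d) (H338.TC.ry q d)).Ct univ := H338.C.TL_ct
  h.Na.continuous.continuousOn h.rx.continuous.continuousOn h.ry.continuous.continuousOn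

theorem SmT.cTu {q : Cst} {d : Pk n} (h : SmT q d) (c : ℝ) {Z : VV n → ℝ} (hZ : Continuous Z) :
    (cTu c (H338.TC.Na d) (H338.TC.rx q d) (H338.TC.ry q d) Z).Ct univ := by
  have h : Continuous fun z => c *
      (H338.TC.Na d z * (H338.TC.rx q d z ^ 2 + H338.TC.ry q d z ^ 2) * Z z) :=
    continuous_const.mul ((h.Na.continuous.mul ((h.rx.continuous.pow 2).add
      (h.ry.continuous.pow 2))).mul hZ)
  exact ⟨continuousOn_const, continuousOn_const, continuousOn_const, continuousOn_const,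
    h.continuousOn, h.continuousOn, continuousOn_const, continuousOn_const⟩

theorem cdn_ct {σ τ : Sl (VV n) (Fin n)} {ν : Fin n → VV n → ℝ} {χ n₁ n₂ : VV n → ℝ}
    (ok : σ.Ok univ fun _ => 1) (ot : τ.Ok univ fun _ => 1) (hν : ∀ i, ContDiff ℝ ∞ (ν i))
    (hχ : ContDiff ℝ ∞ χ) (h1 : Continuous n₁) (h2 : Continuous n₂) :
    (cdn σ τ ν χ n₁ n₂).Ct univ := by
  have sDx : ContDiff ℝ ∞ (Dn σ ν χ) := contDiffOn_univ.1
    (H338.C.sDn ok (fun i => (hν i).contDiffOn) hχ.contDiffOn)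
  have sDy : ContDiff ℝ ∞ (Dn τ ν χ) := contDiffOn_univ.1
    (H338.C.sDn ot (fun i => (hν i).contDiffOn) hχ.contDiffOn)
  refine ⟨continuousOn_const, continuousOn_const, continuousOn_const, continuousOn_const,
    ?_, ?_, continuousOn_const, continuousOn_const⟩
  · exact (continuous_const.mul (continuous_const.mul
      (h1.mul (sDx.continuous.pow 2)))).continuousOn
  · exact (continuous_const.mul (continuous_const.mul
      (h2.mul (sDy.continuous.pow 2)))).continuousOn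

/-- The new costs of one slot. -/
theorem cost1 {σ : Sl (VV n) (Fin n)} {ν : Fin n → VV n → ℝ} {χ N ρ : VV n → ℝ} {S c₁ c₂ : ℝ}
    {z : VV n} (h1 : 0 ≤ c₁) (h2 : 0 ≤ c₂) (hN : 0 ≤ N z)
    (up : ∀ (ξ : Fin n → ℝ), ∑ i, ∑ j, σ.s i j z * ξ i * ξ j ≤ 2 * ∑ i, ξ i ^ 2)
    (hS : ∑ i, σ.D i χ z ^ 2 ≤ S) (hν : Dn σ ν χ z ^ 2 ≤ ∑ i, σ.D i χ z ^ 2) :
    2 * (8 * (nr c₁ N ρ z * Dn σ ν χ z ^ 2)) + 64 * (nr (4 * c₂) N ρ z * σ.Γ χ χ z) ≤
      (16 * c₁ + 512 * c₂) * (N z * ρ z ^ 2 * S) := by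
  have g : σ.Γ χ χ z ≤ 2 * S := (up fun i => σ.D i χ z).trans (by linarith)
  have d : Dn σ ν χ z ^ 2 ≤ S := hν.trans hS
  have p : 0 ≤ N z * ρ z ^ 2 := by positivity
  have k1 := mul_le_mul_of_nonneg_left d (mul_nonneg h1 p)
  have k2 := mul_le_mul_of_nonneg_left g (mul_nonneg h2 p)
  unfold H338.C.nr
  linarith

/-- The costs in the letters of the table. -/
theorem cost_le {q : Cst} {d : Pk n} {χ : VV n → ℝ} {C c₁ c₂ C₂ A : ℝ} (hC : 0 ≤ C)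
    (h1 : 0 ≤ c₁) (h2 : 0 ≤ c₂) (hT : SmT q d) (hχ : tsupport χ ⊆ OI q d)
    (hI : RIs d.sx d.sy (d.W q) (d.E q) (d.Kf q) (gfI q d) (nuL d) C₂ A (OI q d)) (z : VV n) :
    Q8.Le (Tab.cI (nu0 q d) C (fun z => gq χ z + gp χ z) (gp χ) +
      cdn d.sx d.sy (nuL d) χ (nr c₁ (Na d) (ry q d)) (nr c₁ (Na d) (rx q d)) +
      cu2 d.sx d.sy (nr (4 * c₂) (Na d) (ry q d)) (nr (4 * c₂) (Na d) (rx q d)) χ)
      (Tab.cI (nu0 q d) (3 * C) (sq1 χ) (sqp χ) +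
        cTu (16 * c₁ + 512 * c₂) (Na d) (rx q d) (ry q d) (sq1 χ)) z := by
  have E0 : 0 < d.E q z := Real.exp_pos _
  have hs := gqp_sq1 χ z
  have hsp : 0 ≤ sqp χ z := H867.Z.sqp_nn χ z
  have hs1 : 0 ≤ sq1 χ z := H867.Z.sq1_nn χ z
  have hN := (hT.N0 z).le
  have sx : ∑ i, d.sx.D i χ z ^ 2 ≤ sq1 χ z := by
    unfold sq1
    refine Finset.sum_le_sum fun i _ => ?_
    rw [hI.dσ]
    linarith [sq_nonneg (dy i χ z)]
  have sy : ∑ i, d.sy.D i χ z ^ 2 ≤ sq1 χ z := by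
    unfold sq1
    refine Finset.sum_le_sum fun i _ => ?_
    rw [hI.dτ]
    linarith [sq_nonneg (dx i χ z)]
  have nx : Dn d.sx (nuL d) χ z ^ 2 ≤ ∑ i, d.sx.D i χ z ^ 2 := by
    by_cases hz : z ∈ tsupport χ
    · exact Dn_sq (hI.ν1 z (hχ hz))
    · have e : ∀ i, d.sx.D i χ z = 0 := fun i => by
        rw [hI.dσ]
        show fderiv ℝ χ z _ = 0
        rw [fdchi0 hz]
        rfl
      unfold H338.C.Dn
      simp [e]
  have ny : Dn d.sy (nuL d) χ z ^ 2 ≤ ∑ i, d.sy.D i χ z ^ 2 := by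
    by_cases hz : z ∈ tsupport χ
    · exact Dn_sq (hI.ν1 z (hχ hz))
    · have e : ∀ i, d.sy.D i χ z = 0 := fun i => by
        rw [hI.dτ]
        show fderiv ℝ χ z _ = 0
        rw [fdchi0 hz]
        rfl
      unfold H338.C.Dn
      simp [e]
  have a1 := cost1 (ρ := ry q d) h1 h2 hN (hI.upσ z) sx nx
  have a2 := cost1 (ρ := rx q d) h1 h2 hN (hI.upτ z) sy ny
  have b1 : 0 ≤ (16 * c₁ + 512 * c₂) * (Na d z * rx q d z ^ 2 * sq1 χ z) := by positivity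
  have b2 : 0 ≤ (16 * c₁ + 512 * c₂) * (Na d z * ry q d z ^ 2 * sq1 χ z) := by positivity
  refine ⟨?_, ?_, ?_, ?_, ?_, ?_, ?_, ?_⟩
  · exact le_of_eq (by show (0 : ℝ) + 0 + 0 = 0 + 0; ring)
  · exact le_of_eq (by show (0 : ℝ) + 0 + 0 = 0 + 0; ring)
  · exact le_of_eq (by show (0 : ℝ) + 0 + 0 = 0 + 0; ring)
  · exact le_of_eq (by show (0 : ℝ) + 0 + 0 = 0 + 0; ring)
  · show (0 : ℝ) + 2 * (8 * (nr c₁ (Na d) (ry q d) z * Dn d.sx (nuL d) χ z ^ 2)) +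
      64 * (nr (4 * c₂) (Na d) (ry q d) z * d.sx.Γ χ χ z) ≤
      0 + (16 * c₁ + 512 * c₂) * (Na d z * (rx q d z ^ 2 + ry q d z ^ 2) * sq1 χ z)
    linarith
  · show (0 : ℝ) + 2 * (8 * (nr c₁ (Na d) (rx q d) z * Dn d.sy (nuL d) χ z ^ 2)) +
      64 * (nr (4 * c₂) (Na d) (rx q d) z * d.sy.Γ χ χ z) ≤
      0 + (16 * c₁ + 512 * c₂) * (Na d z * (rx q d z ^ 2 + ry q d z ^ 2) * sq1 χ z)
    linarith
  · show C * (d.E q z * (gq χ z + gp χ z)) + 0 + 0 ≤ 3 * C * (d.E q z * sq1 χ z) + 0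
    have := mul_le_mul_of_nonneg_left hs (mul_nonneg hC E0.le)
    linarith
  · show C * (d.E q z * gp χ z + (gq χ z + gp χ z)) + 0 + 0 ≤
      3 * C * (d.E q z * sqp χ z + sq1 χ z) + 0
    have k1 := mul_le_mul_of_nonneg_left hs hC
    have k2 : 0 ≤ C * (d.E q z * sqp χ z) := by positivity
    rw [gp_sqp]
    rw [gp_sqp] at k1
    linarith

/-- The margins in the letters of the table. -/
theorem marg_le {q : Cst} {d : Pk n} {χ : VV n → ℝ} {c c₂ : ℝ} (z : VV n) :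
    Q8.Le ((Tab.MI (nu0 q d) (c / 4) + TL c₂ (Na d) (rx q d) (ry q d)).sm fun z => χ z ^ 2)
      ((qt (Tab.MI (nu0 q d) c) + TL c₂ (Na d) (rx q d) (ry q d)).sm fun z => χ z ^ 2) z := by
  refine ⟨le_of_eq ?_, le_of_eq ?_, le_of_eq ?_, le_of_eq ?_, le_of_eq ?_, le_of_eq ?_,
    le_of_eq ?_, le_of_eq ?_⟩ <;>
  simp only [Q8.add_def, H338.C.qt, Q8.sm, Pi.add_apply, Pi.mul_apply, Tab.MI] <;> ring

/-- The zone in the letters of the table. -/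
theorem zone_T {q : Cst} {d : Pk n} {χ : VV n → ℝ} {c C c₁ c₂ C₂ A : ℝ} (hC : 0 ≤ C)
    (h1 : 0 ≤ c₁) (h2 : 0 ≤ c₂) (hd : PkOk q d) (hs : LitSm q d) (hT : SmT q d)
    (sχ : ContDiff ℝ ∞ χ) (hχ : tsupport χ ⊆ OI q d)
    (hI : RIs d.sx d.sy (d.W q) (d.E q) (d.Kf q) (gfI q d) (nuL d) C₂ A (OI q d))
    (key : d.Zone q χ
      ((qt (Tab.MI (nu0 q d) c) + TL c₂ (Na d) (rx q d) (ry q d)).sm fun z => χ z ^ 2)
      (Tab.cI (nu0 q d) C (fun z => gq χ z + gp χ z) (gp χ) +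
      cdn d.sx d.sy (nuL d) χ (nr c₁ (Na d) (ry q d)) (nr c₁ (Na d) (rx q d)) +
      cu2 d.sx d.sy (nr (4 * c₂) (Na d) (ry q d)) (nr (4 * c₂) (Na d) (rx q d)) χ)) :
    d.Zone q χ ((Tab.MI (nu0 q d) (c / 4) + TL c₂ (Na d) (rx q d) (ry q d)).sm fun z => χ z ^ 2)
      (Tab.cI (nu0 q d) (3 * C) (sq1 χ) (sqp χ) +
        cTu (16 * c₁ + 512 * c₂) (Na d) (rx q d) (ry q d) (sq1 χ)) := by
  have cF : Continuous (d.sx.F (d.W q)) :=
    continuousOn_univ.1 (hI.oσ.sF hI.sW.contDiffOn).continuousOn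
  have cF' : Continuous (d.sy.F (d.W q)) :=
    continuousOn_univ.1 (hI.oτ.sF hI.sW.contDiffOn).continuousOn
  have hν := nu0_ct hd hs cF cF'
  have hcχ : ContinuousOn (fun z => χ z ^ 2) univ := (sχ.continuous.pow 2).continuousOn
  have cp := H338.E.ct_sm hcχ (H338.C.ct_add (H338.C.qt_ct (H341.EP.ct_MI (c := c) hν))
    (hT.TL c₂))
  have cp' := H338.E.ct_sm hcχ (H338.C.ct_add (H341.EP.ct_MI (c := c / 4) hν) (hT.TL c₂))
  have cq1 := H341.EP.ct_cI (C := C) hν (Zq := fun z => gq χ z + gp χ z) (Zp := gp χ)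
    ((c_gq sχ).add (c_gp sχ)).continuousOn (c_gp sχ).continuousOn
  have cq2 := cdn_ct (ν := nuL d) (n₁ := nr c₁ (Na d) (ry q d)) (n₂ := nr c₁ (Na d) (rx q d))
    hI.oσ hI.oτ hI.sν sχ (hT.nr _ hT.ry).continuous (hT.nr _ hT.rx).continuous
  have cq3 := H338.C.cu2_ct hI.oσ hI.oτ (U := univ) sχ.contDiffOn
    (hT.nr (4 * c₂) hT.ry).continuous.continuousOn
    (hT.nr (4 * c₂) hT.rx).continuous.continuousOn
  have cq' := H338.C.ct_add (H341.EP.ct_cI (C := 3 * C) hν (c_sq1 sχ).continuousOn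
    (c_sqp sχ).continuousOn) (hT.cTu (16 * c₁ + 512 * c₂) (c_sq1 sχ))
  exact H354.E.zone_mono hI.oσ hI.oτ contDiffOn_const contDiffOn_const hI.sW.contDiffOn
    cp (H338.C.ct_add (H338.C.ct_add cq1 cq2) cq3) cp' cq' (fun z _ => marg_le z)
    (fun z _ => cost_le hC h1 h2 hT hχ hI z) key

/-- The letters of the leaf `zI`. -/
theorem let_zI {L : Lc n} {e : Cst → ℝ} {q : Cst} {d : Pk n} {c C c₁ c₂ : ℝ}
    (e1 : L.cI q = c / 4) (e2 : L.CI q = 3 * C) (e3 : L.cN q = c₂)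
    (e4 : L.CN q = 16 * c₁ + 512 * c₂) :
    Mz L q d .zI = Tab.MI (nu0 q d) (c / 4) + TL c₂ (Na d) (rx q d) (ry q d) ∧
    coz L e q d .zI = Tab.cI (nu0 q d) (3 * C) (sq1 (d.ch q .zI)) (sqp (d.ch q .zI)) +
      cTu (16 * c₁ + 512 * c₂) (Na d) (rx q d) (ry q d) (sq1 (d.ch q .zI)) := by
  constructor
  · show Tab.MI (nu L.kz q d) (L.cI q) + TL (L.cN q) (Na d) (rx q d) (ry q d) = _
    rw [e1, e3]
    rfl
  · show Tab.cI (nu L.kz q d) (L.CI q) (sq1 (d.ch q .zI)) (sqp (d.ch q .zI)) +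
      cTu (L.CN q) (Na d) (rx q d) (ry q d) (sq1 (d.ch q .zI)) = _
    rw [e2, e4]
    rfl

/-- The facts on the constants and on the cut-off. -/
structure ZIc (C₂ : ℝ) (q : Cst) (d : Pk n) : Prop where
  s : LitSm q d
  T : SmT q d
  sup : tsupport (d.ch q .zI) ⊆ OI q d
  R : RIs d.sx d.sy (d.W q) (d.E q) (d.Kf q) (gfI q d) (nuL d) C₂ 1 (OI q d)

theorem zIc (hn : 3 ≤ n) (hRF : RowRF) : ∃ C₂ : ℝ, EvC fun q => ∀ d : Pk n, PkOk q d →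
    ZIc C₂ q d := by
  obtain ⟨C₂, -, hRF⟩ := hRF n hn
  refine ⟨C₂, ?_⟩
  have h := (((EvC.litSm n).and (supp_zI n)).and (EvC.pos.and EvC.rad)).and (hRF 1 one_pos)
  refine h.mono fun q hq d hd => ?_
  obtain ⟨⟨⟨hs, hsup⟩, hp, hr⟩, hrf⟩ := hq
  have hs := hs d hd
  exact ⟨hs, smT hd hs hr hp.2.2.1 hp.1.2.2.2.2.2.2.2.1, hsup d hd, (hrf d hd).1⟩

theorem nu0_ok (q : Cst) (d : Pk n) : NuOk q d (nu0 q d) := ⟨rfl, rfl, rfl, rfl, rfl⟩

theorem leaf1 {L : Lc n} {e : Cst → ℝ} {q : Cst} {d : Pk n} {c C c₁ c₂ C₂ : ℝ}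
    (e1 : L.cI q = c / 4) (e2 : L.CI q = 3 * C) (e3 : L.cN q = c₂)
    (e4 : L.CN q = 16 * c₁ + 512 * c₂) (hC : 0 ≤ C) (h1 : 0 ≤ c₁) (h2 : 0 ≤ c₂)
    (hd : PkOk q d) (f : ZIc C₂ q d)
    (k1 : d.Zone q (d.ch q .zI) ((qt (Tab.MI (nu0 q d) c) +
      TL c₂ (Na d) (rx q d) (ry q d)).sm fun z => d.ch q .zI z ^ 2)
      (Tab.cI (nu0 q d) C (fun z => gq (d.ch q .zI) z + gp (d.ch q .zI) z) (gp (d.ch q .zI)) +
      cdn d.sx d.sy (nuL d) (d.ch q .zI) (nr c₁ (Na d) (ry q d)) (nr c₁ (Na d) (rx q d)) +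
      cu2 d.sx d.sy (nr (4 * c₂) (Na d) (ry q d)) (nr (4 * c₂) (Na d) (rx q d)) (d.ch q .zI))) :
    d.Zone q (d.ch q .zI) ((Mz L q d .zI).sm fun z => d.ch q .zI z ^ 2) (coz L e q d .zI) := by
  have key := zone_T hC h1 h2 hd f.s f.T (f.s.ch .zI) f.sup f.R k1
  obtain ⟨e5, e6⟩ := let_zI (e := e) (d := d) e1 e2 e3 e4
  rw [e5, e6]
  exact key

/-- **The leaf `zI`** from the zone with the tube letters. -/
theorem zI_leaf (hn : 3 ≤ n) (hRF : RowRF) {c C c₁ : ℝ} {cT : Cst → ℝ} (hC : 0 ≤ C)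
    (h1 : 0 ≤ c₁) (h2 : ∀ q, 0 ≤ cT q) (H : ZIg n c C c₁ cT) (L : Lc n)
    (e1 : ∀ q, L.cI q = c / 4) (e2 : ∀ q, L.CI q = 3 * C) (e3 : ∀ q, L.cN q = cT q)
    (e4 : ∀ q, L.CN q = 16 * c₁ + 512 * cT q) : ZoE L .zI := by
  obtain ⟨C₂, hc⟩ := zIc hn hRF
  refine ⟨fun _ => 1, ⟨fun _ => rfl, fun _ => one_pos⟩, fun e _ _ => ?_⟩
  have h := EvC.and hc H
  show EvC fun q => ∀ d : Pk n, PkOk q d →
    d.Zone q (d.ch q .zI) ((Mz L q d .zI).sm fun z => d.ch q .zI z ^ 2) (coz L e q d .zI)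
  refine EvC.mono h fun q hq d hd => ?_
  have f := hq.1 d hd
  have k := hq.2 d hd (nu0 q d) (nu0_ok q d) (d.ch q .zI) (f.s.ch .zI) f.sup
  exact leaf1 (e := e) (e1 q) (e2 q) (e3 q) (e4 q) hC h1 (h2 q) hd f k

/-- **The leaf `zI`**, with the order of the constants. -/
theorem zI_fin (hn : 3 ≤ n) (hRF : RowRF) {c C c₁ : ℝ} {cT : Cst → ℝ} (hc : 0 < c) (hC : 0 < C)
    (h1 : 0 < c₁) (hT : (∀ q, 0 < cT q) ∧ NB_c' cT) (H : ZIg n c C c₁ cT) :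
    ∃ cI CI cN CN : Cst → ℝ, ((∀ q, 0 < cI q) ∧ NB_c₀ cI) ∧ ((∀ q, 0 < CI q) ∧ NB_c₀ CI) ∧
      ((∀ q, 0 < cN q) ∧ NB_c' cN) ∧ ((∀ q, 0 < CN q) ∧ NB_c' CN) ∧
      ∀ L : Lc n, L.cI = cI → L.CI = CI → L.cN = cN → L.CN = CN → ZoE L .zI := by
  refine ⟨fun _ => c / 4, fun _ => 3 * C, cT, fun q => 16 * c₁ + 512 * cT q,
    ⟨fun _ => by positivity, fun _ => rfl⟩, ⟨fun _ => by positivity, fun _ => rfl⟩, hT,
    ⟨fun q => by have := hT.1 q; positivity, fun q => by simp only [hT.2 q]⟩, ?_⟩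
  intro L e1 e2 e3 e4
  exact zI_leaf hn hRF hC.le h1.le (fun q => (hT.1 q).le) H L (fun q => by rw [e1])
    (fun q => by rw [e2]) (fun q => by rw [e3]) fun q => by rw [e4]

end Vale.Agent.P088.R2.H205.CP
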