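import Vale.Agent.P088.R2.H205.C.ZF
import Vale.Agent.P088.R2.H321.ZI.PW

/-!
# P088, stage 3, zone C, region I: row `ZRI`
-/

namespace Vale.Agent.P088.R2.H205.CP

/-- **The leaf `zI`.** -/
theorem zRI {n : ℕ} (hn : 3 ≤ n) : H558.G.ZRI n := zri_of H321.ZI.rowPW n hn

end Vale.Agent.P088.R2.H205.CP
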