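import Vale.Agent.P088.R2.H205.C.ZI
import Vale.Agent.P088.R2.H165.Tab

/-!
# P088, stage 3, zone C, region I: the letters of the table
-/

open Set Filter MeasureTheory
open scoped ContDiff Topology

noncomputable section

namespace Vale.Agent.P088.R2.H205.CP

open Vale.Agent.P088.LR Vale.Agent.P088.HY
open Vale.Agent.P088.R2.H644 Vale.Agent.P088.R2.H961.GW Vale.Agent.P088.R2.H551.E
open Vale.Agent.P088.R2.H31.EP Vale.Agent.P088.R2.H165
open Vale.Agent.P088.R2.H464.Cu (mid dif rq)

variable {n : ℕ}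

/-- The numbers of the table for the data (any `k`). -/
structure NuOk (q : Cst) (d : Pk n) (t : Tab.Nu (VV n)) : Prop where
  En : t.En = d.E q
  N : t.N = d.N q
  m : t.m = d.m q
  F₁ : t.F₁ = d.sx.F (d.W q)
  F₂ : t.F₂ = d.sy.F (d.W q)

/-- **Region I for the true weight, letters of the table**, with the term
`c K (ν·(X a + X b))²`. -/
theorem zI_T (hAI : RowAI') (hCM : RowCM) (hEN : RowEN) (hCW : RowCW) (hPW : RowPW)
    (hRF : RowRF) : ∀ n : ℕ, 3 ≤ n → ∃ c C : ℝ, 0 < c ∧ 0 < C ∧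
    EvC fun q => ∀ d : Pk n, PkOk q d →
      RIs d.sx d.sy (d.W q) (d.E q) (d.Kf q) (gfI q d) (nuL d) C 1 (OI q d) ∧
      ∀ t : Tab.Nu (VV n), NuOk q d t →
      ∀ χ : VV n → ℝ, ContDiff ℝ ∞ χ → tsupport χ ⊆ OI q d →
      ZoneK d.sx d.sy 0 0 (d.W q) (d.Kf q) χ (nuL d) c
        ((Tab.MI t c).sm fun z => χ z ^ 2)
        (Tab.cI t C (fun z => gq χ z + gp χ z) (gp χ)) := by
  intro n hn
  obtain ⟨c, C, hc, hC, H⟩ := zI_K hAI hCM hEN hCW hPW hRF n hn
  refine ⟨c / 16, C, by positivity, hC, H.mono ?_⟩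
  intro q h d hd
  obtain ⟨hN, hs, h⟩ := h d hd
  refine ⟨hs, fun t ht χ sχ hχ a b ha hb => ?_⟩
  have key := h χ sχ hχ a b ha hb
  have sE := hs.sE.continuous
  have cq := c_gq sχ
  have cp := c_gp sχ
  have cF : Continuous (d.sx.F (d.W q)) :=
    continuousOn_univ.1 (hs.oσ.sF hs.sW.contDiffOn).continuousOn
  have cF' : Continuous (d.sy.F (d.W q)) :=
    continuousOn_univ.1 (hs.oτ.sF hs.sW.contDiffOn).continuousOn
  have cM : Continuous (Mν (nuL d) (d.W q)) :=
    continuous_finsetSum _ fun i _ => (hs.sν i).continuous.mul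
      ((c_dx hs.sW i).add (c_dy hs.sW i))
  have F0 : ∀ z, 0 ≤ d.sx.F (d.W q) z := fun z => by
    have := hs.loσ z fun i => d.sx.D i (d.W q) z
    have h6 : 0 ≤ ∑ i, d.sx.D i (d.W q) z ^ 2 := Finset.sum_nonneg fun _ _ => sq_nonneg _
    have h7 : d.sx.F (d.W q) z = ∑ i, ∑ j, d.sx.s i j z * d.sx.D i (d.W q) z *
      d.sx.D j (d.W q) z := rfl
    linarith
  have F0' : ∀ z, 0 ≤ d.sy.F (d.W q) z := fun z => by
    have := hs.loτ z fun i => d.sy.D i (d.W q) z
    have h6 : 0 ≤ ∑ i, d.sy.D i (d.W q) z ^ 2 := Finset.sum_nonneg fun _ _ => sq_nonneg _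
    have h7 : d.sy.F (d.W q) z = ∑ i, ∑ j, d.sy.s i j z * d.sy.D i (d.W q) z *
      d.sy.D j (d.W q) z := rfl
    linarith
  -- the cost
  have e1 : Tab.cI t C (fun z => gq χ z + gp χ z) (gp χ) = coI C (d.E q) χ := by
    unfold Tab.cI coI
    rw [ht.En]
  rw [e1]
  -- the term of the slope
  have t3 : Te univ fun z => (∑ i, nuL d i z * (Ch.XX d.sx (d.W q) a z i +
      Ch.XX d.sy (d.W q) b z i)) ^ 2 := by
    refine (Te.sum isOpen_univ _ fun i _ => Te.mul_left isOpen_univ ?_
      (hs.sν i).contDiffOn).sq isOpen_univ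
    exact (Vale.Agent.P088.R2.H960.W.tX hs.oσ hs.sW.contDiffOn ha i).add isOpen_univ
      (Vale.Agent.P088.R2.H960.W.tX hs.oτ hs.sW.contDiffOn hb i)
  have h1 : In univ (fun _ => 1) (fun z => χ z ^ 2 * (c / 16 * d.Kf q z *
      (∑ i, nuL d i z * (Ch.XX d.sx (d.W q) a z i + Ch.XX d.sy (d.W q) b z i)) ^ 2)) ≤
      In univ (fun _ => 1) (fun z => χ z ^ 2 * (c * d.Kf q z *
      (∑ i, nuL d i z * (Ch.XX d.sx (d.W q) a z i + Ch.XX d.sy (d.W q) b z i)) ^ 2)) := by
    rw [int_univ, int_univ]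
    refine integral_mono (((Te.cc t3).mulL (continuous_const.mul hs.sK)).mulL
      (sχ.continuous.pow 2)).int (((Te.cc t3).mulL (continuous_const.mul hs.sK)).mulL
      (sχ.continuous.pow 2)).int fun z => ?_
    show χ z ^ 2 * (c / 16 * d.Kf q z * _) ≤ χ z ^ 2 * (c * d.Kf q z * _)
    by_cases hz : z ∈ tsupport χ
    · have k0 := hs.k0 z (hχ hz)
      gcongr
      linarith
    · rw [chi0 hz]; simp
  -- the margin
  have h2 : In univ (fun _ => 1)
      (((Tab.MI t (c / 16)).sm fun z => χ z ^ 2).dens d.sx d.sy 0 0 (d.W q) a b) ≤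
      In univ (fun _ => 1) (((mgI c d.sx d.sy (d.W q) (d.E q) (gfI q d) (nuL d)).sm
        fun z => χ z ^ 2).dens d.sx d.sy 0 0 (d.W q) a b) := by
    rw [int_univ, int_univ]
    -- integrability
    have ts : Te univ (sqd d.sx d.sy 0 0 (d.W q) a b) :=
      tsqd hs.oσ hs.oτ contDiffOn_const contDiffOn_const hs.sW.contDiffOn ha hb
    have t1 : Te univ (nX d.sx (d.W q) a) := tnX hs.oσ hs.sW.contDiffOn ha
    have t2 : Te univ (nX d.sy (d.W q) b) := tnX hs.oτ hs.sW.contDiffOn hb
    have ty : Te univ (nY d.sx d.sy (d.W q) a b) := tnY hs.oσ hs.oτ hs.sW.contDiffOn ha hb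
    have gen : ∀ (Q : Q8 (VV n)), Continuous Q.κ → Continuous Q.ζ₁ → Continuous Q.ζ₂ →
        Continuous Q.ζy → Continuous Q.w₁ → Continuous Q.w₂ → Continuous Q.wb →
        Continuous Q.wc → Cc ((Q.sm fun z => χ z ^ 2).dens d.sx d.sy 0 0 (d.W q) a b) := by
      intro Q g1 g2 g3 g4 g5 g6 g7 g8
      have e : ((Q.sm fun z => χ z ^ 2).dens d.sx d.sy 0 0 (d.W q) a b) = fun z =>
          χ z ^ 2 * (Q.κ z * sqd d.sx d.sy 0 0 (d.W q) a b z + Q.ζ₁ z * nX d.sx (d.W q) a z +
            Q.ζ₂ z * nX d.sy (d.W q) b z + Q.ζy z * nY d.sx d.sy (d.W q) a b z +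
            Q.w₁ z * a z ^ 2 + Q.w₂ z * b z ^ 2 + Q.wb z * (a z + b z) ^ 2 +
            Q.wc z * (a z - b z) ^ 2) := by
        funext z
        rw [Q8.dens_sm]
        rfl
      rw [e]
      have c1 := (((Te.cc ts).mulL g1).add ((Te.cc t1).mulL g2)).add ((Te.cc t2).mulL g3)
      have c2 := ((c1.add ((Te.cc ty).mulL g4)).add (cc_sq g5 ha)).add (cc_sq g6 hb)
      have c3 := (c2.add (cc_sq g7 (ha.add isOpen_univ hb))).add
        (cc_sq g8 (ha.sub isOpen_univ hb))
      exact c3.mulL (sχ.continuous.pow 2)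
    have e2 : (Tab.MI t (c / 16)) = ⟨fun _ => c / 16, fun _ => c / 16, fun _ => c / 16,
        fun z => c / 16 * d.E q z, fun z => c / 16 * d.sx.F (d.W q) z,
        fun z => c / 16 * d.sy.F (d.W q) z, fun z => c / 16 * d.E q z ^ 2,
        fun z => c / 16 * (gfI q d z * d.N q z ^ 2)⟩ := by
      unfold Tab.MI
      rw [ht.En, ht.F₁, ht.F₂]
      congr 1
      funext z
      unfold Tab.Nu.wI gfI
      rw [ht.En, ht.N, ht.m]
      ring
    rw [e2]
    have cN : Continuous (d.N q) := by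
      have cu : Continuous (d.u q) := by
        have e : d.u q = fun z => Real.log (d.E q z) := by
          funext z
          unfold Pk.E
          rw [Real.log_exp]
        rw [e]
        exact sE.log fun z => (hs.E0 z).ne'
      exact ((contDiff_infty_iff_deriv.1 hd.top.sm).2.continuous).comp cu
    refine integral_mono (gen _ ?_ ?_ ?_ ?_ ?_ ?_ ?_ ?_).int (gen _ ?_ ?_ ?_ ?_ ?_ ?_ ?_ ?_).int
      fun z => ?_
    · exact continuous_const
    · exact continuous_const
    · exact continuous_const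
    · exact continuous_const.mul sE
    · exact continuous_const.mul cF
    · exact continuous_const.mul cF'
    · exact continuous_const.mul (sE.pow 2)
    · exact continuous_const.mul (hs.sg.continuous.mul (cN.pow 2))
    · exact continuous_const
    · exact continuous_const
    · exact continuous_const
    · exact continuous_const.mul sE
    · exact continuous_const.mul cF
    · exact continuous_const.mul cF'
    · exact continuous_const.mul (sE.pow 2)
    · exact continuous_const.mul (hs.sg.continuous.mul (cM.pow 2))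
    · rw [Q8.dens_sm, Q8.dens_sm]
      by_cases hz : z ∈ tsupport χ
      · refine mul_le_mul_of_nonneg_left (Q8.dens_le ⟨?_, ?_, ?_, ?_, ?_, ?_, ?_, ?_⟩)
          (sq_nonneg (χ z))
        · show c / 16 ≤ c
          linarith
        · show c / 16 ≤ c
          linarith
        · show c / 16 ≤ c
          linarith
        · exact mul_le_mul_of_nonneg_right (by linarith) (hs.E0 z).le
        · exact mul_le_mul_of_nonneg_right (by linarith) (F0 z)
        · exact mul_le_mul_of_nonneg_right (by linarith) (F0' z)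
        · exact mul_le_mul_of_nonneg_right (by linarith) (sq_nonneg _)
        · have q1 := hN z (hχ hz)
          have q2 := mul_le_mul_of_nonneg_left q1 (hs.g0 z (hχ hz))
          have q3 := mul_le_mul_of_nonneg_left q2 hc.le
          show c / 16 * (gfI q d z * d.N q z ^ 2) ≤
            c * (gfI q d z * Mν (nuL d) (d.W q) z ^ 2)
          linarith
      · rw [chi0 hz]; simp
  linarith

end Vale.Agent.P088.R2.H205.CP
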